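import Vale.Agent.P275.H341.Psh

/-! # P275, lowest degree, row A2: the degree of the hook polynomials -/

namespace Vale.Agent.P275.R2.H700

open Filter Topology Asymptotics Finset Vale.Agent.P275.H341

/-- the partition with one part -/
def row1 (k : ℕ) : Fin k → ℕ := fun i => if (i : ℕ) = 0 then k else 0

theorem num_bound (q : ℂ) (hq : 1 ≤ ‖q‖) (l : ℕ) :
    ‖∏ t ∈ range l, (q ^ (t + 1) - 1)‖ ≤ 2 ^ l * ‖q‖ ^ (Nat.choose (l + 1) 2) := by
  induction l with
  | zero => simp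
  | succ l ih =>
    rw [prod_range_succ, norm_mul]
    have h1 : ‖q ^ (l + 1) - 1‖ ≤ 2 * ‖q‖ ^ (l + 1) := by
      have h2 : (1 : ℝ) ≤ ‖q‖ ^ (l + 1) := one_le_pow₀ hq
      calc ‖q ^ (l + 1) - 1‖ ≤ ‖q ^ (l + 1)‖ + ‖(1 : ℂ)‖ := norm_sub_le _ _
        _ ≤ 2 * ‖q‖ ^ (l + 1) := by rw [norm_pow, norm_one]; linarith
    have h3 : Nat.choose (l + 1 + 1) 2 = Nat.choose (l + 1) 2 + (l + 1) := by
      rw [Nat.choose_succ_succ' (l + 1) 1, Nat.choose_one_right]; ring
    calc _ ≤ (2 ^ l * ‖q‖ ^ (Nat.choose (l + 1) 2)) * (2 * ‖q‖ ^ (l + 1)) :=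
          mul_le_mul ih h1 (norm_nonneg _) (by positivity)
      _ = _ := by rw [h3]; ring

theorem den_bound (q : ℂ) (hq : 2 ≤ ‖q‖) {a b : ℕ} (h : b < a) :
    ‖q‖ ^ a / 2 ≤ ‖q ^ a - q ^ b‖ := by
  obtain ⟨c, rfl⟩ : ∃ c, a = c + 1 := ⟨a - 1, by omega⟩
  have h1 : ‖q‖ ^ b ≤ ‖q‖ ^ c := pow_le_pow_right₀ (by linarith) (by omega)
  have h2 : ‖q‖ ^ (c + 1) - ‖q‖ ^ b ≤ ‖q ^ (c + 1) - q ^ b‖ := by
    have := norm_sub_norm_le (q ^ (c + 1)) (q ^ b)
    rwa [norm_pow, norm_pow] at this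
  have h3 : (0 : ℝ) ≤ ‖q‖ ^ c := by positivity
  have h4 : ‖q‖ ^ (c + 1) = ‖q‖ ^ c * ‖q‖ := pow_succ _ _
  nlinarith

theorem sum_choose (k : ℕ) : ∑ i : Fin k, Nat.choose (k - 1 - i) 2 = Nat.choose k 3 := by
  have h : ∀ k, ∑ i ∈ range k, Nat.choose i 2 = Nat.choose k 3 := by
    intro k
    induction k with
    | zero => rfl
    | succ k ih => rw [sum_range_succ, ih, Nat.choose_succ_succ' k 2, add_comm]
  rw [← h k, ← sum_range_reflect, Fin.sum_univ_eq_sum_range (fun i => Nat.choose (k - 1 - i) 2)]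

theorem choose_id (lam a : ℕ) : Nat.choose (lam + a + 1) 2 + Nat.choose a 2 =
    Nat.choose (lam + 1) 2 + a * (lam + a) := by
  induction a with
  | zero => simp
  | succ a ih =>
    rw [show lam + (a + 1) + 1 = (lam + a + 1) + 1 by ring, Nat.choose_succ_succ' (lam + a + 1) 1,
      Nat.choose_succ_succ' a 1, Nat.choose_one_right, Nat.choose_one_right]
    nlinarith

theorem hk_bound {k : ℕ} (lam : Fin k → ℕ) (hl : ∀ i j : Fin k, i ≤ j → lam j ≤ lam i)
    (q : ℂ) (hq : 2 ≤ ‖q‖) :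
    ‖hk q lam‖ ≤ (∏ i : Fin k, (2 : ℝ) ^ (lam i + (k - 1 - i) + (k - 1 - i))) *
      ‖q‖ ^ (∑ i, Nat.choose (lam i + 1) 2) := by
  have hq1 : 1 ≤ ‖q‖ := by linarith
  have hq0 : 0 < ‖q‖ := by linarith
  unfold hk
  rw [norm_div, norm_mul, norm_prod, norm_prod, norm_pow]
  have hden : ∏ i : Fin k, (‖q‖ ^ (lam i + (k - 1 - i)) / 2) ^ (k - 1 - (i : ℕ)) ≤
      ∏ i : Fin k, ‖∏ j ∈ Ioi i, (q ^ (lam i + (k - 1 - i)) - q ^ (lam j + (k - 1 - j)))‖ := by
    refine prod_le_prod (fun i _ => by positivity) fun i _ => ?_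
    rw [norm_prod]
    have hc : (Ioi i).card = k - 1 - (i : ℕ) := Fin.card_Ioi i
    rw [← hc, ← prod_const]
    refine prod_le_prod (fun j _ => by positivity) fun j hj => ?_
    have hij : i < j := mem_Ioi.1 hj
    have h1 := hl i j hij.le
    have h2 : (i : ℕ) < j := hij
    have h3 := j.2
    rw [hc]
    exact den_bound q hq (by omega)
  have hpos : 0 < ∏ i : Fin k, (‖q‖ ^ (lam i + (k - 1 - i)) / 2) ^ (k - 1 - (i : ℕ)) :=
    prod_pos fun i _ => by positivity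
  have hnum : ∏ i : Fin k, ‖∏ t ∈ range (lam i + (k - 1 - i)), (q ^ (t + 1) - 1)‖ ≤
      ∏ i : Fin k, (2 ^ (lam i + (k - 1 - i)) *
        ‖q‖ ^ (Nat.choose (lam i + (k - 1 - i) + 1) 2)) :=
    prod_le_prod (fun i _ => norm_nonneg _) fun i _ => num_bound q hq1 _
  rw [div_le_iff₀ (hpos.trans_le hden)]
  calc ‖q‖ ^ k.choose 3 * ∏ i : Fin k, ‖∏ t ∈ range (lam i + (k - 1 - i)), (q ^ (t + 1) - 1)‖
      ≤ ‖q‖ ^ k.choose 3 * ∏ i : Fin k, (2 ^ (lam i + (k - 1 - i)) *
        ‖q‖ ^ (Nat.choose (lam i + (k - 1 - i) + 1) 2)) :=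
        mul_le_mul_of_nonneg_left hnum (by positivity)
    _ = ∏ i : Fin k, (‖q‖ ^ (Nat.choose (k - 1 - i) 2) * (2 ^ (lam i + (k - 1 - i)) *
        ‖q‖ ^ (Nat.choose (lam i + (k - 1 - i) + 1) 2))) := by
        conv_rhs => rw [prod_mul_distrib, prod_pow_eq_pow_sum, sum_choose]
    _ = ∏ i : Fin k, (((2 : ℝ) ^ (lam i + (k - 1 - i) + (k - 1 - i)) *
        ‖q‖ ^ Nat.choose (lam i + 1) 2) *
        (‖q‖ ^ (lam i + (k - 1 - i)) / 2) ^ (k - 1 - (i : ℕ))) := by
        refine prod_congr rfl fun i _ => ?_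
        have e := choose_id (lam i) (k - 1 - i)
        have e1 : ‖q‖ ^ (Nat.choose (k - 1 - i) 2) *
            ‖q‖ ^ (Nat.choose (lam i + (k - 1 - i) + 1) 2) =
            ‖q‖ ^ Nat.choose (lam i + 1) 2 * ‖q‖ ^ ((k - 1 - (i : ℕ)) * (lam i + (k - 1 - i))) := by
          rw [← pow_add, ← pow_add, ← e, add_comm]
        generalize Nat.choose (lam i + (k - 1 - i) + 1) 2 = A at *
        generalize Nat.choose (k - 1 - i) 2 = B at *
        generalize Nat.choose (lam i + 1) 2 = D at *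
        generalize k - 1 - (i : ℕ) = a at *
        generalize lam i + a = l at *
        rw [div_pow, ← pow_mul, mul_comm l a]
        have h2 : (2 : ℝ) ^ (l + a) = 2 ^ l * 2 ^ a := pow_add _ _ _
        rw [h2]
        have h3 : (2 : ℝ) ^ a ≠ 0 := by positivity
        field_simp
        linear_combination e1
    _ = (∏ i : Fin k, (2 : ℝ) ^ (lam i + (k - 1 - i) + (k - 1 - i))) *
        ‖q‖ ^ (∑ i, Nat.choose (lam i + 1) 2) *
        ∏ i : Fin k, (‖q‖ ^ (lam i + (k - 1 - i)) / 2) ^ (k - 1 - (i : ℕ)) := by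
        rw [prod_mul_distrib, prod_mul_distrib,
          prod_pow_eq_pow_sum univ (fun i => Nat.choose (lam i + 1) 2) ‖q‖]
    _ ≤ _ := mul_le_mul_of_nonneg_left hden (by positivity)

theorem sum_le {k : ℕ} {lam : Fin k → ℕ} (hl : lam ∈ Pt k) (hne : lam ≠ row1 k) :
    ∑ i, Nat.choose (lam i + 1) 2 ≤ k * (k + 1) / 2 - 1 := by
  unfold Pt at hl
  rw [mem_filter, Finset.Nat.mem_antidiagonalTuple] at hl
  obtain ⟨hs, ha⟩ := hl
  have h1 : ∀ i, lam i ≤ k - 1 := by
    intro i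
    by_contra hc
    apply hne
    have hik : k ≤ lam i := by omega
    have h0 : 0 < k := i.pos
    have hone : ∀ j, j ≠ i → lam j = 0 := by
      intro j hj
      have h2 : ∑ m ∈ {i, j}, lam m ≤ ∑ m, lam m :=
        sum_le_sum_of_subset (subset_univ _)
      rw [sum_pair hj.symm, hs] at h2
      omega
    have hi : lam i = k := by
      rw [← hs]
      exact (sum_eq_single i (fun j _ hj => hone j hj) (fun h => absurd (mem_univ i) h)).symm
    have hi0 : i = ⟨0, h0⟩ := by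
      by_contra h
      have h3 := ha ⟨0, h0⟩ i (Fin.mk_le_of_le_val (Nat.zero_le _))
      have h4 := hone ⟨0, h0⟩ (fun e => h e.symm)
      omega
    funext j
    unfold row1
    by_cases hj : (j : ℕ) = 0
    · rw [if_pos hj]
      have : j = i := by rw [hi0]; exact Fin.ext hj
      rw [this, hi]
    · rw [if_neg hj]
      refine hone j fun e => hj ?_
      rw [e, hi0]
  have hk : 2 ≤ k := by
    by_contra hc
    apply hne
    interval_cases k
    · funext i; exact i.elim0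
    · funext i
      have h2 := h1 i
      rw [Fin.sum_univ_one] at hs
      have : i = 0 := Subsingleton.elim _ _
      subst this
      omega
  have h2 : 2 * ∑ i, Nat.choose (lam i + 1) 2 ≤ k * k := by
    rw [mul_sum]
    calc ∑ i, 2 * Nat.choose (lam i + 1) 2 ≤ ∑ i, k * lam i := by
          refine Finset.sum_le_sum fun i _ => ?_
          have h3 : 2 * Nat.choose (lam i + 1) 2 = (lam i + 1) * lam i := by
            have h4 := Nat.triangle_succ (lam i)
            rw [Nat.choose_two_right]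
            have h5 : Even ((lam i + 1) * (lam i + 1 - 1)) := by
              rw [Nat.add_sub_cancel, mul_comm]
              exact Nat.even_mul_succ_self _
            rw [Nat.two_mul_div_two_of_even h5, Nat.add_sub_cancel]
          rw [h3]
          exact Nat.mul_le_mul_right _ (by have := h1 i; omega)
      _ = k * k := by rw [← mul_sum, hs]
  have h3 : 2 * (k * (k + 1) / 2) = k * (k + 1) :=
    Nat.two_mul_div_two_of_even (Nat.even_mul_succ_self k)
  have h4 : k * (k + 1) = k * k + k := by ring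
  omega

/-- ROW A2. -/
theorem rowA2 {k d : ℕ} (hd : 1 ≤ d) {lam : Fin k → ℕ} (hl : lam ∈ Pt k) (hne : lam ≠ row1 k) :
    (fun x : ℝ => hk ((x : ℂ) ^ d) lam) =O[atTop] fun x : ℝ => x ^ (d * (k * (k + 1) / 2 - 1)) := by
  refine IsBigO.of_bound (∏ i : Fin k, (2 : ℝ) ^ (lam i + (k - 1 - i) + (k - 1 - i))) ?_
  filter_upwards [eventually_ge_atTop (2 : ℝ)] with x hx
  have h0 : (0 : ℝ) ≤ x := by linarith
  have hn : ‖(x : ℂ) ^ d‖ = x ^ d := by
    rw [norm_pow, Complex.norm_real, Real.norm_of_nonneg h0]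
  have h2 : 2 ≤ ‖(x : ℂ) ^ d‖ := by
    rw [hn]
    calc (2 : ℝ) ≤ x := hx
      _ = x ^ 1 := (pow_one x).symm
      _ ≤ x ^ d := pow_le_pow_right₀ (by linarith) hd
  have ha : ∀ i j : Fin k, i ≤ j → lam j ≤ lam i := (mem_filter.1 hl).2
  refine (hk_bound lam ha _ h2).trans ?_
  refine mul_le_mul_of_nonneg_left ?_ (prod_nonneg fun i _ => by positivity)
  rw [hn, Real.norm_of_nonneg (by positivity), pow_mul]
  exact pow_le_pow_right₀ (by rw [hn] at h2; linarith) (sum_le hl hne)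

end Vale.Agent.P275.R2.H700
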